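import Vale.Agent.P167.N.QC.Oc
import Vale.Agent.P167.H476.Q.Law

/-!
# P167, `0 < q < 1`: few islands, strands

`Fz` after the exploration of strands, change of the centre, restriction to a box.
-/

set_option autoImplicit false

namespace Vale.Agent.P167.N.H640

open Finset Relation Vale.Agent.P167 Vale.Agent.P167.FK Vale.Agent.P167.FKA
open Vale.Agent.P167.H476.Q (Tr mem_Tr)
open Vale.Agent.P167.H318 (st)
open Vale.Agent.P167.H166 (mem_Bq)
open Vale.Agent.P167.N.QC (Wa Fz lv lv_le)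

variable {D K B : Finset (ℤ × ℤ)} {η ω : Cfg} {m : ℕ} {x z : ℤ × ℤ} {r R : ℤ}

/-- The two squares of a medial edge. -/
theorem wa_e (η : Cfg) (e : Ed) : Wa η (hdv e) (tlv e) := by
  have key : ∀ a b u u' : ℤ × ℤ, (u.1 + u.2) % 2 = 1 → (u'.1 + u'.2) % 2 = 0 → Cor a u → Cor b u →
      Cor a u' → Cor b u' → Wa η a b := by
    intro a b u u' h1 h2 h3 h4 h5 h6
    cases h : η a
    · exact ⟨u, h3, h4, Or.inl ⟨h1, Or.inl h⟩⟩
    · exact ⟨u', h5, h6, Or.inr ⟨h2, Or.inl h⟩⟩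
  rcases e with v | v
  · by_cases h : Even (v.1 + v.2)
    · have h' := Int.even_iff.1 h
      refine key _ _ (v.1 + 1, v.2) (v.1 + 1, v.2 + 1) (by simp only; omega) (by simp only; omega)
        ?_ ?_ ?_ ?_ <;> simp [hdv, tlv, h, Cor]
    · have h' := Int.not_even_iff.1 h
      refine key _ _ (v.1 + 1, v.2 + 1) (v.1 + 1, v.2) (by simp only; omega) (by simp only; omega)
        ?_ ?_ ?_ ?_ <;> simp [hdv, tlv, h, Cor]
  · by_cases h : Even (v.1 + v.2)
    · have h' := Int.even_iff.1 h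
      refine key _ _ (v.1, v.2 + 1) (v.1 + 1, v.2 + 1) (by simp only; omega) (by simp only; omega)
        ?_ ?_ ?_ ?_ <;> simp [hdv, tlv, h, Cor]
    · have h' := Int.not_even_iff.1 h
      refine key _ _ (v.1 + 1, v.2 + 1) (v.1, v.2 + 1) (by simp only; omega) (by simp only; omega)
        ?_ ?_ ?_ ?_ <;> simp [hdv, tlv, h, Cor]

theorem wc_mono {D' : Finset (ℤ × ℤ)} {η' : Cfg} (hD : D' ⊆ D) (h : ∀ v, v ∉ D → η' v = η v)
    {a b : ℤ × ℤ} (hab : QC.Wc D η a b) : QC.Wc D' η' a b := by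
  induction hab with
  | refl => exact ReflTransGen.refl
  | tail _ h2 ih =>
    obtain ⟨h3, h4, u, h5, h6, h7⟩ := h2
    refine ih.tail ⟨fun h' => h3 (hD h'), fun h' => h4 (hD h'), u, h5, h6, ?_⟩
    rw [h _ h3, h _ h4]
    exact h7

/-- The squares of a strand are joined to the square before its first edge. -/
theorem wc_tr {e : Ed} {S : Set (ℤ × ℤ)} (hK : Tr B e S ω ⊆ K) (he : tlv e ∉ D) {v : ℤ × ℤ}
    (hv : v ∈ Tr B e S ω) : QC.Wc (D \ K) ω v (tlv e) := by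
  obtain ⟨i, hi, rfl⟩ := mem_Tr.1 hv
  have hK' : ∀ j ≤ i, hdv (st e ω j) ∉ D \ K := fun j hj h =>
    (Finset.mem_sdiff.1 h).2 (hK (mem_Tr.2 ⟨j, by omega, rfl⟩))
  have he' : tlv e ∉ D \ K := fun h => he (Finset.mem_sdiff.1 h).1
  clear hv hi
  induction i with
  | zero => exact ReflTransGen.single ⟨hK' 0 le_rfl, he', wa_e ω e⟩
  | succ i ih =>
    refine ReflTransGen.head ⟨hK' _ le_rfl, hK' i (by omega), ?_⟩ (ih fun j hj => hK' j (by omega))
    rw [← Vale.Agent.P167.H318.Bs.tlv_st (ξ := ω) (e0 := e) i]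
    exact wa_e ω _

/-- The exploration of squares which are joined to frozen ones makes no new island. -/
theorem fz_sdiff (h : Fz m x R D η) (hω : ∀ v, v ∉ D → ω v = η v)
    (hK : ∀ v ∈ K, ∃ w, w ∉ D ∧ QC.Wc (D \ K) ω v w) : Fz m x R (D \ K) ω := by
  obtain ⟨P, hP, h⟩ := h
  have h1 : ∀ v w, QC.Wc D η v w → QC.Wc (D \ K) ω v w := fun v w hvw =>
    wc_mono Finset.sdiff_subset hω hvw
  refine ⟨P, hP, fun v hv hvR => ?_⟩
  by_cases hvD : v ∈ D
  · have hvK : v ∈ K := by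
      by_contra h2
      exact hv (Finset.mem_sdiff.2 ⟨hvD, h2⟩)
    obtain ⟨w, hw, hc⟩ := hK v hvK
    by_cases hwR : lv x w ≤ R
    · obtain ⟨w', h2, h3⟩ := h w hw hwR
      exact ⟨w', h2, hc.trans (h1 _ _ h3)⟩
    · exact ⟨w, Or.inl (by omega), hc⟩
  · obtain ⟨w, h2, h3⟩ := h v hvD hvR
    exact ⟨w, h2, h1 _ _ h3⟩

/-- Change of the centre and of the radius. -/
theorem fz_shift {R' : ℤ} (h : Fz m z R' D η) (hx : nm (x - z) + R ≤ R') : Fz m x R D η := by
  obtain ⟨P, hP, h⟩ := h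
  have hx' := (lv_le (x := z) (v := x) (r := nm (x - z))).1 le_rfl
  have tri : ∀ v, lv z v ≤ lv x v + nm (x - z) := by
    intro v
    have h1 := (lv_le (x := x) (v := v) (r := lv x v)).1 le_rfl
    rw [lv_le]
    simp only [abs_le] at *
    omega
  refine ⟨P, hP, fun v hv hvR => ?_⟩
  obtain ⟨w, h1, h2⟩ := h v hv (by have := tri v; omega)
  refine ⟨w, ?_, h2⟩
  rcases h1 with h1 | h1
  · left
    have := tri w
    omega
  · exact Or.inr h1

theorem fz_le {R' : ℤ} (h : Fz m z R' D η) (hR : R ≤ R') : Fz m z R D η := by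
  refine fz_shift h ?_
  have : nm (z - z) = 0 := by simp [nm]
  omega

/-- The restriction to a box, the squares outside are frozen. -/
theorem fz_box (h : Fz m x R D η) (hB : ∀ w ∈ FK.Bq x R, w ∈ B)
    (hω : ∀ v, v ∉ D → ω v = η v) : Fz m x R (D ∩ B) ω := by
  obtain ⟨P, hP, h⟩ := h
  refine ⟨P, hP, fun v hv hvR => ?_⟩
  by_cases hv' : R ≤ lv x v
  · exact ⟨v, Or.inl hv', ReflTransGen.refl⟩
  have hvB : v ∈ B := hB v (mem_Bq.2 (by
    have := lv_le.1 (by omega : lv x v ≤ R - 1)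
    simp only [abs_le] at this
    omega))
  obtain ⟨w, h1, h2⟩ := h v (fun hvD => hv (Finset.mem_inter.2 ⟨hvD, hvB⟩)) hvR
  exact ⟨w, h1, wc_mono Finset.inter_subset_left hω h2⟩

end Vale.Agent.P167.N.H640
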